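import Vale.Agent.P011.D4X.Defs
import Vale.Agent.P011.D4.Orbit
import Mathlib.Analysis.Complex.Basic

/-!
Block D4X: limits with respect to a set of complex embeddings.
-/

open Filter Topology

namespace Vale.Agent.P011.D4X

open Vale.Agent.P011.MPQ Vale.Agent.P011.D4 Vale.Agent.P011.D4.Oct

section elt

variable {E X : Type} [Field E] {S : Set (E →+* ℂ)} {F : Filter X} {f g : X → E} {x y : E}

/-- The values at the embeddings of `S` tend to those of `x`. -/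
def TE (S : Set (E →+* ℂ)) (F : Filter X) (f : X → E) (x : E) : Prop :=
  ∀ w ∈ S, Tendsto (fun v => w (f v)) F (𝓝 (w x))

theorem TE.const (S : Set (E →+* ℂ)) (F : Filter X) (x : E) : TE S F (fun _ => x) x :=
  fun _ _ => tendsto_const_nhds

theorem TE.add (hf : TE S F f x) (hg : TE S F g y) : TE S F (fun v => f v + g v) (x + y) := by
  intro w hw
  simp only [map_add]
  exact (hf w hw).add (hg w hw)

theorem TE.sub (hf : TE S F f x) (hg : TE S F g y) : TE S F (fun v => f v - g v) (x - y) := by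
  intro w hw
  simp only [map_sub]
  exact (hf w hw).sub (hg w hw)

theorem TE.neg (hf : TE S F f x) : TE S F (fun v => -f v) (-x) := by
  intro w hw
  simp only [map_neg]
  exact (hf w hw).neg

theorem TE.mul (hf : TE S F f x) (hg : TE S F g y) : TE S F (fun v => f v * g v) (x * y) := by
  intro w hw
  simp only [map_mul]
  exact (hf w hw).mul (hg w hw)

theorem TE.pow (hf : TE S F f x) (n : ℕ) : TE S F (fun v => f v ^ n) (x ^ n) := by
  intro w hw
  simp only [map_pow]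
  exact (hf w hw).pow n

theorem TE.inv (hf : TE S F f x) (hx : x ≠ 0) : TE S F (fun v => (f v)⁻¹) x⁻¹ := by
  intro w hw
  simp only [map_inv₀]
  exact (hf w hw).inv₀ ((map_ne_zero w).2 hx)

theorem TE.div (hf : TE S F f x) (hg : TE S F g y) (hy : y ≠ 0) :
    TE S F (fun v => f v / g v) (x / y) := by
  simp only [div_eq_mul_inv]
  exact hf.mul (hg.inv hy)

theorem TE.congr (hf : TE S F f x) (h : ∀ v, f v = g v) (hx : x = y) : TE S F g y := by
  have e : f = g := funext h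
  rw [← e, ← hx]
  exact hf

theorem TE.aut {k : Type} [Field k] [Algebra k E] {ρ : E ≃ₐ[k] E}
    (hρ : ∀ w ∈ S, w.comp (ρ : E →+* E) ∈ S) (hf : TE S F f x) :
    TE S F (fun v => ρ (f v)) (ρ x) :=
  fun w hw => hf _ (hρ w hw)

/-- The positive real parts. -/
theorem TE.eventually_pos (hS : S.Finite) (hf : TE S F f x) (h0 : ∀ w ∈ S, 0 < (w x).re) :
    ∀ᶠ v in F, ∀ w ∈ S, 0 < (w (f v)).re := by
  rw [eventually_all_finite hS]
  intro w hw
  have h1 : Tendsto (fun v => (w (f v)).re) F (𝓝 (w x).re) :=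
    (Complex.continuous_re.tendsto _).comp (hf w hw)
  exact h1.eventually (lt_mem_nhds (h0 w hw))

theorem TE.eventually_ne (hne : S.Nonempty) (hf : TE S F f x) (h0 : x ≠ 0) :
    ∀ᶠ v in F, f v ≠ 0 := by
  obtain ⟨w, hw⟩ := hne
  have h1 := (hf w hw).eventually_ne ((map_ne_zero w).2 h0)
  filter_upwards [h1] with v hv h2
  exact hv (by rw [h2, map_zero])

end elt

section quat

variable {E X : Type} [Field E] {S : Set (E →+* ℂ)} {F : Filter X} {a b : Eˣ}
  {f g : X → Qt a b} {x y : Qt a b} {t : X → E} {s : E}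

/-- The four coordinates converge. -/
def TQ (S : Set (E →+* ℂ)) (F : Filter X) (f : X → Qt a b) (x : Qt a b) : Prop :=
  TE S F (fun v => (f v).re) x.re ∧ TE S F (fun v => (f v).imI) x.imI ∧
    TE S F (fun v => (f v).imJ) x.imJ ∧ TE S F (fun v => (f v).imK) x.imK

theorem TQ.const (S : Set (E →+* ℂ)) (F : Filter X) (x : Qt a b) : TQ S F (fun _ => x) x :=
  ⟨.const _ _ _, .const _ _ _, .const _ _ _, .const _ _ _⟩

theorem TQ.add (hf : TQ S F f x) (hg : TQ S F g y) : TQ S F (fun v => f v + g v) (x + y) :=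
  ⟨(hf.1.add hg.1), (hf.2.1.add hg.2.1), (hf.2.2.1.add hg.2.2.1), (hf.2.2.2.add hg.2.2.2)⟩

theorem TQ.sub (hf : TQ S F f x) (hg : TQ S F g y) : TQ S F (fun v => f v - g v) (x - y) :=
  ⟨(hf.1.sub hg.1), (hf.2.1.sub hg.2.1), (hf.2.2.1.sub hg.2.2.1), (hf.2.2.2.sub hg.2.2.2)⟩

theorem TQ.neg (hf : TQ S F f x) : TQ S F (fun v => -f v) (-x) :=
  ⟨hf.1.neg, hf.2.1.neg, hf.2.2.1.neg, hf.2.2.2.neg⟩

theorem TQ.smul (ht : TE S F t s) (hf : TQ S F f x) : TQ S F (fun v => t v • f v) (s • x) :=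
  ⟨ht.mul hf.1, ht.mul hf.2.1, ht.mul hf.2.2.1, ht.mul hf.2.2.2⟩

theorem TQ.star (hf : TQ S F f x) : TQ S F (fun v => star (f v)) (star x) := by
  refine ⟨hf.1.congr (fun v => ?_) ?_, hf.2.1.neg.congr (fun v => ?_) ?_,
    hf.2.2.1.neg.congr (fun v => ?_) ?_, hf.2.2.2.neg.congr (fun v => ?_) ?_⟩ <;> simp

theorem TQ.mul (hf : TQ S F f x) (hg : TQ S F g y) : TQ S F (fun v => f v * g v) (x * y) := by
  obtain ⟨f1, f2, f3, f4⟩ := hf
  obtain ⟨g1, g2, g3, g4⟩ := hg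
  have ha := TE.const S F (a : E)
  have hb := TE.const S F (b : E)
  refine ⟨((((f1.mul g1).add ((ha.mul f2).mul g2)).add ((hb.mul f3).mul g3)).sub
      (((ha.mul hb).mul f4).mul g4)).congr (fun v => ?_) ?_,
    ((((f1.mul g2).add (f2.mul g1)).sub ((hb.mul f3).mul g4)).add
      ((hb.mul f4).mul g3)).congr (fun v => ?_) ?_,
    ((((f1.mul g3).add ((ha.mul f2).mul g4)).add (f3.mul g1)).sub
      ((ha.mul f4).mul g2)).congr (fun v => ?_) ?_,
    ((((f1.mul g4).add (f2.mul g3)).sub (f3.mul g2)).add (f4.mul g1)).congr (fun v => ?_) ?_⟩ <;>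
    simp

theorem TQ.nrd (hf : TQ S F f x) : TE S F (fun v => nrd (f v)) (nrd x) := by
  obtain ⟨f1, f2, f3, f4⟩ := hf
  have ha := TE.const S F (a : E)
  have hb := TE.const S F (b : E)
  exact ((((f1.pow 2).sub (ha.mul (f2.pow 2))).sub (hb.mul (f3.pow 2))).add
    ((ha.mul hb).mul (f4.pow 2))).congr (fun v => by simp only [MPQ.nrd]) (by
      simp only [MPQ.nrd])

end quat

section oct

variable {E X : Type} [Field E] {S : Set (E →+* ℂ)} {F : Filter X} {a b c : Eˣ}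
  {f g : X → Oct a b c} {x y : Oct a b c} {t : X → E} {s : E}

/-- The eight coordinates converge. -/
def TO (S : Set (E →+* ℂ)) (F : Filter X) (f : X → Oct a b c) (x : Oct a b c) : Prop :=
  TQ S F (fun v => (f v).fst) x.fst ∧ TQ S F (fun v => (f v).snd) x.snd

theorem TO.const (S : Set (E →+* ℂ)) (F : Filter X) (x : Oct a b c) : TO S F (fun _ => x) x :=
  ⟨.const _ _ _, .const _ _ _⟩

theorem TO.add (hf : TO S F f x) (hg : TO S F g y) : TO S F (fun v => f v + g v) (x + y) :=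
  ⟨hf.1.add hg.1, hf.2.add hg.2⟩

theorem TO.sub (hf : TO S F f x) (hg : TO S F g y) : TO S F (fun v => f v - g v) (x - y) :=
  ⟨hf.1.sub hg.1, hf.2.sub hg.2⟩

theorem TO.neg (hf : TO S F f x) : TO S F (fun v => -f v) (-x) := ⟨hf.1.neg, hf.2.neg⟩

theorem TO.smul (ht : TE S F t s) (hf : TO S F f x) : TO S F (fun v => t v • f v) (s • x) :=
  ⟨hf.1.smul ht, hf.2.smul ht⟩

theorem TO.star (hf : TO S F f x) : TO S F (fun v => star (f v)) (star x) :=
  ⟨hf.1.star, hf.2.neg⟩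

theorem TO.mul (hf : TO S F f x) (hg : TO S F g y) : TO S F (fun v => f v * g v) (x * y) :=
  ⟨(hf.1.mul hg.1).add ((hg.2.star.mul hf.2).smul (TE.const S F (c : E))),
    (hg.2.mul hf.1).add (hf.2.mul hg.1.star)⟩

theorem TO.norm (hf : TO S F f x) : TE S F (fun v => Oct.norm (f v)) (Oct.norm x) :=
  hf.1.nrd.sub ((TE.const S F (c : E)).mul hf.2.nrd)

theorem TO.bil (hf : TO S F f x) (hg : TO S F g y) :
    TE S F (fun v => Oct.bil (f v) (g v)) (Oct.bil x y) :=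
  ((hf.add hg).norm.sub hf.norm).sub hg.norm

end oct

section aut

variable {k E X : Type} [Field k] [Field E] [Algebra k E] {S : Set (E →+* ℂ)} {F : Filter X}
  {a b c : kˣ} {ρ σ ι : E ≃ₐ[k] E}

theorem TQ.qmap (hρ : ∀ w ∈ S, w.comp (ρ : E →+* E) ∈ S) {f : X → Qt (up E a) (up E b)}
    {x : Qt (up E a) (up E b)} (hf : TQ S F f x) :
    TQ S F (fun v => qmap ρ (f v)) (qmap ρ x) :=
  ⟨hf.1.aut hρ, hf.2.1.aut hρ, hf.2.2.1.aut hρ, hf.2.2.2.aut hρ⟩

variable {f g : X → OctL E a b c} {x y : OctL E a b c}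

theorem TO.omap (hρ : ∀ w ∈ S, w.comp (ρ : E →+* E) ∈ S) (hf : TO S F f x) :
    TO S F (fun v => omap ρ (f v)) (omap ρ x) :=
  ⟨hf.1.qmap hρ, hf.2.qmap hρ⟩

theorem TO.invo (hι : ∀ w ∈ S, w.comp (ι : E →+* E) ∈ S) (hf : TO S F f x) :
    TO S F (fun v => invo ι (f v)) (invo ι x) :=
  hf.star.omap hι

theorem TO.tri (hρ : ∀ w ∈ S, w.comp (ρ : E →+* E) ∈ S) (hf : TO S F f x) (hg : TO S F g y) :
    TO S F (fun v => tri ρ (f v) (g v)) (tri ρ x y) :=
  (hf.star.omap hρ).mul ((hg.star.omap hρ).omap hρ)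

variable {L : Type} [Field L] [Algebra k L] [Algebra L E] [IsScalarTower k L E] {α : E} {q : Lˣ}

omit [Algebra k L] [IsScalarTower k L E] in
theorem TO.Jm (hσ : ∀ w ∈ S, w.comp (σ : E →+* E) ∈ S) (hf : TO S F f x) :
    TO S F (fun v => Jm ρ σ α q (f v)) (Jm ρ σ α q x) :=
  ⟨((TQ.const S F _).mul (hf.1.qmap hσ)).mul (TQ.const S F _),
    (hf.2.qmap hσ).mul (TQ.const S F _)⟩

end aut

/-! Neighbourhoods. -/

section nh

variable {E : Type} [Field E] {a b c : Eˣ}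

/-- The eight coordinates. -/
def co8 (x : Oct a b c) : Fin 8 → E :=
  ![x.fst.re, x.fst.imI, x.fst.imJ, x.fst.imK, x.snd.re, x.snd.imI, x.snd.imJ, x.snd.imK]

theorem co8_sub (x y : Oct a b c) (i : Fin 8) : co8 (x - y) i = co8 x i - co8 y i := by
  fin_cases i <;> simp [co8]

/-- The sum of the absolute values of the coordinates. -/
noncomputable def on (w : E →+* ℂ) (x : Oct a b c) : ℝ := ∑ i, ‖w (co8 x i)‖

theorem on_nonneg (w : E →+* ℂ) (x : Oct a b c) : 0 ≤ on w x :=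
  Finset.sum_nonneg fun _ _ => norm_nonneg _

theorem co8_le (w : E →+* ℂ) (x : Oct a b c) (i : Fin 8) : ‖w (co8 x i)‖ ≤ on w x :=
  Finset.single_le_sum (f := fun i => ‖w (co8 x i)‖) (fun _ _ => norm_nonneg _)
    (Finset.mem_univ i)

/-- The neighbourhoods of an element with respect to the embeddings of `S`. -/
noncomputable def nh (S : Set (E →+* ℂ)) (v0 : Oct a b c) : Filter (Oct a b c) :=
  comap (fun v (p : S × Fin 8) => p.1.1 (co8 v p.2)) (𝓝 fun p => p.1.1 (co8 v0 p.2))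

theorem tendsto_nh {S : Set (E →+* ℂ)} (v0 : Oct a b c) {w : E →+* ℂ} (hw : w ∈ S) (i : Fin 8) :
    Tendsto (fun v => w (co8 v i)) (nh S v0) (𝓝 (w (co8 v0 i))) := by
  have h1 : Tendsto (fun (v : Oct a b c) (p : S × Fin 8) => p.1.1 (co8 v p.2)) (nh S v0)
      (𝓝 fun p => p.1.1 (co8 v0 p.2)) := tendsto_comap
  exact (tendsto_pi_nhds.1 h1) (⟨w, hw⟩, i)

theorem TO_id (S : Set (E →+* ℂ)) (v0 : Oct a b c) : TO S (nh S v0) (fun v => v) v0 :=
  ⟨⟨fun _ hw => tendsto_nh v0 hw 0, fun _ hw => tendsto_nh v0 hw 1,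
    fun _ hw => tendsto_nh v0 hw 2, fun _ hw => tendsto_nh v0 hw 3⟩,
    ⟨fun _ hw => tendsto_nh v0 hw 4, fun _ hw => tendsto_nh v0 hw 5,
    fun _ hw => tendsto_nh v0 hw 6, fun _ hw => tendsto_nh v0 hw 7⟩⟩

/-- Neighbourhoods in terms of absolute values. -/
theorem exists_eps {S : Set (E →+* ℂ)} (hS : S.Finite) {v0 : Oct a b c} {P : Oct a b c → Prop}
    (h : ∀ᶠ v in nh S v0, P v) :
    ∃ ε : ℝ, 0 < ε ∧ ∀ v, (∀ w ∈ S, on w (v - v0) ≤ ε) → P v := by
  have := hS.fintype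
  obtain ⟨t, ht, h1⟩ := mem_comap.1 h
  obtain ⟨ε, hε, h2⟩ := Metric.mem_nhds_iff.1 ht
  refine ⟨ε / 2, half_pos hε, fun v hv => h1 (h2 ?_)⟩
  rw [Metric.mem_ball, dist_pi_lt_iff hε]
  rintro ⟨⟨w, hw⟩, i⟩
  change dist (w (co8 v i)) (w (co8 v0 i)) < ε
  rw [dist_eq_norm, ← map_sub, ← co8_sub]
  exact ((co8_le w _ i).trans (hv w hw)).trans_lt (half_lt_self hε)

/-- The images of an element under the maps close to the identity. -/
theorem exists_eps_map {S : Set (E →+* ℂ)} (hS : S.Finite) {v0 : Oct a b c}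
    {P : Oct a b c → Prop} (h : ∀ᶠ v in nh S v0, P v) :
    ∃ ε : ℝ, 0 < ε ∧ ∀ g : Oct a b c → Oct a b c,
      (∀ w ∈ S, ∀ x, on w (g x - x) ≤ ε * on w x) → P (g v0) := by
  obtain ⟨ε, hε, h1⟩ := exists_eps hS h
  obtain ⟨C, hC0, hC⟩ : ∃ C : ℝ, 0 < C ∧ ∀ w ∈ S, on w v0 ≤ C := by
    obtain ⟨C, hC⟩ := (hS.image fun w => on w v0).bddAbove
    refine ⟨max C 1, lt_max_of_lt_right one_pos, fun w hw => ?_⟩
    exact (hC ⟨w, hw, rfl⟩).trans (le_max_left _ _)
  refine ⟨ε / C, div_pos hε hC0, fun g hg => h1 _ fun w hw => ?_⟩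
  refine (hg w hw v0).trans ?_
  rw [div_mul_eq_mul_div, div_le_iff₀ hC0]
  exact mul_le_mul_of_nonneg_left (hC w hw) hε.le

end nh

end Vale.Agent.P011.D4X
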